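import Mathlib
import Vale.Agent.Lib.P318.Defs
import Vale.Agent.Lib.P318.FiveMain

namespace Vale.Agent.Results.P318.GapFive

open Vale.Agent.Lib.P318

/-- On five vertices the largest value of `Φ(c) / GL(c)` over capacity functions `c` with
`GL(c) > 0` is exactly `10 / 9`. -/
theorem result :
    IsGreatest {ρ : ℝ | ∃ c : Fin 5 → Fin 5 → ℝ, IsCapacity c ∧ 0 < glValue c ∧
      ρ = sparsity c / glValue c} (10 / 9) :=
  gap_five

end Vale.Agent.Results.P318.GapFive
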