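import Mathlib
import Vale.Agent.Lib.P318.Defs
import Vale.Agent.Lib.P318.SmallMain

namespace Vale.Agent.Results.P318.SmallExact

open Vale.Agent.Lib.P318

/-- For `2 ≤ n ≤ 4` vertices the Goemans-Linial relaxation is exact, `GL(c) = Φ(c)` for every
capacity function `c`, and the largest value of `Φ(c) / GL(c)` over capacity functions with
`GL(c) > 0` is `1`. -/
theorem result (n : ℕ) (h2 : 2 ≤ n) (h4 : n ≤ 4) :
    (∀ c : Fin n → Fin n → ℝ, IsCapacity c → glValue c = sparsity c) ∧
    IsGreatest {ρ : ℝ | ∃ c : Fin n → Fin n → ℝ, IsCapacity c ∧ 0 < glValue c ∧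
      ρ = sparsity c / glValue c} 1 :=
  small_exact n h2 h4

end Vale.Agent.Results.P318.SmallExact
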