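import Mathlib
import Vale.Agent.Lib.P318.Defs
import Vale.Agent.Lib.P318.ThresholdMain

namespace Vale.Agent.Results.P318.Threshold

open Vale.Agent.Lib.P318

/-- The Goemans-Linial relaxation of uniform sparsest cut is exact on `2 ≤ n ≤ 4` vertices, has
a strict integrality gap at least `1 + 4 / ((n - 2)^2 (n - 1))` for every `n ≥ 5`, and on five
vertices its largest gap `Φ(c) / GL(c)` is exactly `10 / 9`. -/
theorem result :
    (∀ n : ℕ, 2 ≤ n → n ≤ 4 →
      (∀ c : Fin n → Fin n → ℝ, IsCapacity c → glValue c = sparsity c) ∧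
      IsGreatest {ρ : ℝ | ∃ c : Fin n → Fin n → ℝ, IsCapacity c ∧ 0 < glValue c ∧
        ρ = sparsity c / glValue c} 1) ∧
    (∀ n : ℕ, 5 ≤ n → ∃ c : Fin n → Fin n → ℝ, IsCapacity c ∧ 0 < glValue c ∧
      1 + 4 / (((n : ℝ) - 2) ^ 2 * ((n : ℝ) - 1)) ≤ sparsity c / glValue c) ∧
    IsGreatest {ρ : ℝ | ∃ c : Fin 5 → Fin 5 → ℝ, IsCapacity c ∧ 0 < glValue c ∧
      ρ = sparsity c / glValue c} (10 / 9) :=
  threshold

end Vale.Agent.Results.P318.Threshold
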